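import Mathlib
import Vale.Agent.P254.AsymF

/-! P254: the strong isotropic constant conjecture: special classes, stability, reduction of the
dimension, and the asymptotic form of the conjecture. -/

namespace Vale.Agent.Results.P254.Asymptotic

open _root_.P254

/-- (A) convex hulls of `n + 2` points; (B) free sums at any common point; (C) Cartesian
products; (D) every body generated from segments by affine maps, products and free sums;
(E) dimension `n + 1` implies dimension `n`; (F) every asymptotic bound for the isotropic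
constant gives a bound in each dimension relative to the simplex; (G) the sharp inequality in
all dimensions is equivalent to the bound `1 / e` for all bodies, and to the asymptotic
bound `1 / e` along some sequence of dimensions. -/
theorem result :
    (∀ n : ℕ, 1 ≤ n → ∀ V : Fin (n + 2) → (Fin n → ℝ),
      (interior (convexHull ℝ (Set.range V))).Nonempty → SSIC (convexHull ℝ (Set.range V))) ∧
    (∀ k m : ℕ, 1 ≤ k → 1 ≤ m → ∀ (K : Set (Fin k → ℝ)) (L : Set (Fin m → ℝ)),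
      IsBody K → IsBody L → (0 : Fin k → ℝ) ∈ K → (0 : Fin m → ℝ) ∈ L →
        SSIC K → SSIC L → SSIC (fsum K L)) ∧
    (∀ k m : ℕ, 1 ≤ k → 1 ≤ m → ∀ (K : Set (Fin k → ℝ)) (L : Set (Fin m → ℝ)),
      IsBody K → IsBody L → SSIC K → SSIC L → SSIC (cprod K L)) ∧
    (∀ (n : ℕ) (K : Set (Fin n → ℝ)), Gen n K → IsBody K ∧ SSIC K) ∧
    (∀ n : ℕ, 1 ≤ n → (∀ K : Set (Fin (n + 1) → ℝ), IsBody K → SSIC K) →
      ∀ K : Set (Fin n → ℝ), IsBody K → SSIC K) ∧
    (∀ c : ℝ, 0 < c →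
      (∀ ε : ℝ, 0 < ε → ∀ N₀ : ℕ, ∃ N ≥ N₀, ∀ K : Set (Fin N → ℝ), IsBody K →
        isoConst K ≤ c + ε) →
      ∀ n : ℕ, 1 ≤ n → ∀ K : Set (Fin n → ℝ), IsBody K → ∀ Δ : Set (Fin n → ℝ), IsSimplex Δ →
        isoConst K ≤ (Real.exp 1 * c) ^ (1 + 1 / (n : ℝ)) * isoConst Δ) ∧
    ((∀ n : ℕ, 1 ≤ n → ∀ K : Set (Fin n → ℝ), IsBody K → SIC K) ↔
      (∀ n : ℕ, 1 ≤ n → ∀ K : Set (Fin n → ℝ), IsBody K → isoConst K ≤ Real.exp (-1))) ∧
    ((∀ n : ℕ, 1 ≤ n → ∀ K : Set (Fin n → ℝ), IsBody K → SIC K) ↔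
      (∀ ε : ℝ, 0 < ε → ∀ N₀ : ℕ, ∃ N ≥ N₀, ∀ K : Set (Fin N → ℝ), IsBody K →
        isoConst K ≤ Real.exp (-1) + ε)) :=
  ⟨fun _ hn V hV => points_ssic hn V hV,
    fun _ _ hk hm _ _ hK hL h0 h0' h1 h2 => fsum_ssic hk hm hK hL h0 h0' h1 h2,
    fun _ _ hk hm _ _ hK hL h1 h2 => cprod_ssic hk hm hK hL h1 h2,
    fun _ _ h => ⟨(gen_ssic h).2.1, (gen_ssic h).2.2⟩,
    fun _ hn h => step_down hn h,
    fun c hc h => of_liminf_c c hc h,
    ⟨fun h n hn K hK => to_univ hn hK (h n hn K hK), fun h => of_liminf fun ε hε N₀ =>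
      ⟨N₀ + 1, Nat.le_succ N₀, fun K hK => (h (N₀ + 1) (Nat.le_add_left 1 N₀) K hK).trans
        (by linarith)⟩⟩,
    ⟨fun h ε hε N₀ => ⟨N₀ + 1, Nat.le_succ N₀, fun K hK =>
      (to_univ (Nat.le_add_left 1 N₀) hK (h (N₀ + 1) (Nat.le_add_left 1 N₀) K hK)).trans
        (by linarith)⟩, of_liminf⟩⟩

end Vale.Agent.Results.P254.Asymptotic
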