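import Mathlib
import Vale.Agent.P254.Strong

/-! P254: the strong isotropic constant conjecture, with its equality case, for all polytopes
with at most `n + 2` vertices in `R^n`, and its stability under free sums and Cartesian
products. -/

namespace Vale.Agent.Results.P254.StrongForm

open _root_.P254

/-- (A) polytopes with at most `n + 2` vertices; (B) free sums at any common point;
(C) Cartesian products; (D) every body generated from segments by affine maps, products and
free sums. `SSIC` contains the equality case. -/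
theorem result :
    (∀ n : ℕ, 1 ≤ n → ∀ V : Fin (n + 2) → (Fin n → ℝ),
      (interior (convexHull ℝ (Set.range V))).Nonempty → SSIC (convexHull ℝ (Set.range V))) ∧
    (∀ k m : ℕ, 1 ≤ k → 1 ≤ m → ∀ (K : Set (Fin k → ℝ)) (L : Set (Fin m → ℝ)),
      IsBody K → IsBody L → (0 : Fin k → ℝ) ∈ K → (0 : Fin m → ℝ) ∈ L →
        SSIC K → SSIC L → SSIC (fsum K L)) ∧
    (∀ k m : ℕ, 1 ≤ k → 1 ≤ m → ∀ (K : Set (Fin k → ℝ)) (L : Set (Fin m → ℝ)),
      IsBody K → IsBody L → SSIC K → SSIC L → SSIC (cprod K L)) ∧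
    (∀ (n : ℕ) (K : Set (Fin n → ℝ)), Gen n K → IsBody K ∧ SSIC K) :=
  ⟨fun _ hn V hV => points_ssic hn V hV,
    fun _ _ hk hm _ _ hK hL h0 h0' h1 h2 => fsum_ssic hk hm hK hL h0 h0' h1 h2,
    fun _ _ hk hm _ _ hK hL h1 h2 => cprod_ssic hk hm hK hL h1 h2,
    fun _ _ h => ⟨(gen_ssic h).2.1, (gen_ssic h).2.2⟩⟩

end Vale.Agent.Results.P254.StrongForm
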